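import Vale.Agent.P235.H105.Glue

/-!
# Pieces with at most two roots (helper325)

`presc2`: an edge-exact graph realises every prescribed value on a root set of at most two adjacent
vertices.  `edgeExact_card`: a graph with at most `m` vertices is edge-exact with `1 / m`.
-/

namespace Vale.Agent.P235.K5.H325

open Vale.Agent.P235

/-- the zero semimetric is `L₁` -/
theorem isL1_zero {V : Type} : IsL1 (fun _ _ : V => (0 : ℝ)) :=
  ⟨Empty, inferInstance, fun i => i.elim, fun i => i.elim, fun i => i.elim, fun x y => by simp⟩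

/-- a graph without edges which generates a metric has at most one vertex -/
theorem eq_of_no_edge {V : Type} {G : SimpleGraph V} {d : V → V → ℝ} (hG : Gen G d)
    (h : ∀ u v, ¬ G.Adj u v) (x y : V) : x = y := by
  classical
  by_contra hxy
  have h1 := hG (fun v => if v = x then d x y + 1 else 0) (fun u v huv => absurd huv (h u v)) x y
  simp only [if_true, if_neg (Ne.symm hxy), sub_zero] at h1
  have h2 := le_abs_self (d x y + 1)
  linarith

/-- **Prescribed value on at most two adjacent roots.** -/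
theorem presc2 {V : Type} [Finite V] {G : SimpleGraph V} {c c' : ℝ} (hc1 : c ≤ 1) (hc' : 0 < c')
    (hcc : 120 * c' ≤ c) (hE : EdgeExact G c) {d : V → V → ℝ} (hd : IsMet d) (hG : Gen G d)
    (R : Set V) (hR : ∀ u ∈ R, ∀ v ∈ R, u ≠ v → G.Adj u v) (h2 : R.ncard ≤ 2) {ρ : V → V → ℝ}
    (hρ : IsL1 ρ) (hρ1 : ∀ u ∈ R, ∀ v ∈ R, c' * d u v ≤ ρ u v)
    (hρ2 : ∀ u ∈ R, ∀ v ∈ R, ρ u v ≤ d u v) :
    ∃ F : V → V → ℝ, IsL1 F ∧ (∀ u ∈ R, ∀ v ∈ R, F u v = ρ u v) ∧
      (∀ x y, c' * d x y ≤ F x y) ∧ ∀ x y, F x y ≤ d x y := by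
  classical
  have hE' : EdgeExact G (120 * c') := hE.mono hcc
  have h0 : (0 : ℝ) < 120 * c' := by positivity
  have h1 : 120 * c' ≤ 1 := hcc.trans hc1
  have he : c' = 120 * c' / 120 := by ring
  by_cases hab : ∃ a ∈ R, ∃ b ∈ R, a ≠ b
  · obtain ⟨a, ha, b, hb, hne⟩ := hab
    have hRab : R = {a, b} := by
      symm
      apply Set.eq_of_subset_of_ncard_le
      · intro x hx
        rcases hx with rfl | hx
        · exact ha
        · rw [Set.mem_singleton_iff] at hx
          rw [hx]
          exact hb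
      · rw [Set.ncard_pair hne]
        exact h2
      · exact Set.toFinite R
    obtain ⟨F, F1, F2, F3, F4, -⟩ := piece2 (c0 := c') h0 h1 he hE' hd hG (hR a ha b hb hne)
      (D := ρ a b) (hρ1 a ha b hb) (hρ2 a ha b hb)
    refine ⟨F, F1, ?_, F3, F4⟩
    have key : ∀ u, (u = a ∨ u = b) → ∀ v, (v = a ∨ v = b) → F u v = ρ u v := by
      rintro u (rfl | rfl) v (rfl | rfl)
      · rw [F1.self, hρ.self]
      · exact F2
      · rw [F1.symm, hρ.symm]
        exact F2
      · rw [F1.self, hρ.self]
    intro u hu v hv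
    rw [hRab] at hu hv
    exact key u hu v hv
  · have hsub : ∀ u ∈ R, ∀ v ∈ R, u = v := by
      intro u hu v hv
      by_contra hne
      exact hab ⟨u, hu, v, hv, hne⟩
    by_cases hed : ∃ s t, G.Adj s t
    · obtain ⟨s, t, hst⟩ := hed
      have hdst := hd.nonneg s t
      obtain ⟨F, F1, F2, F3, F4, -⟩ := piece2 (c0 := c') h0 h1 he hE' hd hG hst
        (D := d s t) (by nlinarith) le_rfl
      refine ⟨F, F1, ?_, F3, F4⟩
      intro u hu v hv
      rw [hsub u hu v hv, F1.self, hρ.self]
    · have hno : ∀ u v, ¬ G.Adj u v := fun u v h => hed ⟨u, v, h⟩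
      have heq := eq_of_no_edge hG hno
      refine ⟨fun _ _ => 0, isL1_zero, ?_, ?_, ?_⟩
      · intro u _ v _
        rw [heq u v, hρ.self]
      · intro x y
        rw [heq x y, hd.self, mul_zero]
      · intro x y
        exact hd.nonneg x y

/-- the functions `d(z, ·)` -/
theorem lineLip_card {V : Type} [Finite V] {m : ℕ} (hm : 0 < m) (hV : Nat.card V ≤ m)
    (G : SimpleGraph V) : LineLip G (1 / m) := by
  classical
  haveI := Fintype.ofFinite V
  intro ρ hρ _
  by_cases hne : Nonempty V
  · have hcard : 0 < Fintype.card V := Fintype.card_pos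
    have hc0 : (0 : ℝ) < Fintype.card V := by exact_mod_cast hcard
    have hcm : (Fintype.card V : ℝ) ≤ m := by
      rw [Nat.card_eq_fintype_card] at hV
      exact_mod_cast hV
    refine ⟨V, inferInstance, fun _ => 1 / Fintype.card V, fun z x => ρ z x,
      fun _ => by positivity, ?_, ?_, ?_⟩
    · rw [Finset.sum_const, Finset.card_univ, nsmul_eq_mul]
      field_simp
    · intro z x y
      show |ρ z x - ρ z y| ≤ ρ x y
      rw [hρ.symm z x, hρ.symm z y]
      exact abs_dist_sub hρ x y z
    · intro x y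
      have h1 : (1 : ℝ) / Fintype.card V * |ρ x x - ρ x y| ≤
          ∑ z, (1 : ℝ) / Fintype.card V * |ρ z x - ρ z y| :=
        Finset.single_le_sum (f := fun z => (1 : ℝ) / Fintype.card V * |ρ z x - ρ z y|)
          (fun z _ => by positivity) (Finset.mem_univ x)
      refine le_trans ?_ h1
      rw [hρ.self, zero_sub, abs_neg, abs_of_nonneg (hρ.nonneg x y)]
      exact mul_le_mul_of_nonneg_right (one_div_le_one_div_of_le hc0 hcm) (hρ.nonneg x y)
  · haveI : IsEmpty V := not_nonempty_iff.1 hne
    refine ⟨Unit, inferInstance, fun _ => 1, fun _ _ => 0, fun _ => zero_le_one, by simp, ?_, ?_⟩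
    · intro _ x
      exact isEmptyElim x
    · intro x
      exact isEmptyElim x

/-- **Small graphs are edge-exact.** -/
theorem edgeExact_card {V : Type} [Finite V] {m : ℕ} (hm : 0 < m) (hV : Nat.card V ≤ m)
    (G : SimpleGraph V) : EdgeExact G (1 / m) :=
  (lineLip_card hm hV G).edgeExact

end Vale.Agent.P235.K5.H325
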